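import Mathlib
import Vale.Agent.Results.P064.A_forest
import Vale.Agent.Results.P064.A_logn
import Vale.Agent.Results.P064.A_main

namespace Vale.Agent.Results.P064.AAA_union

open Vale.Agent.Lib.P064

/-- The count of `Vale.Agent.Lib.P064F` is the count `N`. -/
lemma copies_eq_N {n : ℕ} (G F : SimpleGraph (Fin n)) :
    Vale.Agent.Lib.P064F.copies G F = N G F := by
  unfold Vale.Agent.Lib.P064F.copies N
  rw [← Nat.card_coe_set_eq]
  refine Nat.card_congr (Equiv.subtypeEquivRight fun F' => ?_)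
  simp only [Set.mem_ofPred_eq]
  exact and_congr_right fun _ => ⟨fun ⟨i⟩ => ⟨i.symm⟩, fun ⟨i⟩ => ⟨i.symm⟩⟩

/-- The forest bound for every `q ≥ 0`. -/
lemma forest_all {n : ℕ} (H : SimpleGraph (Fin n)) (hH : H.IsAcyclic) (q : ℝ) (hq : 0 ≤ q)
    (hstar : ∀ F ≤ H, (1 / 2 : ℝ) ≤ (N ⊤ F : ℝ) * q ^ e F) (F : SimpleGraph (Fin n))
    (hF : F ≤ H) : (N H F : ℝ) ≤ (N ⊤ F : ℝ) * (min 1 (2000000 * q)) ^ e F := by
  rcases le_or_gt q 1 with h1 | h1
  · rcases hq.eq_or_lt with h0 | h0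
    · -- `q = 0`: the hypothesis forces `H` to have no edges
      have hex : (min 1 (2000000 * q) : ℝ) = 0 := by rw [← h0]; simp
      have hE : e F = 0 := by
        by_contra hne
        have := hstar F hF
        rw [← h0, zero_pow hne] at this
        norm_num at this
      rw [hE, pow_zero, mul_one]
      exact_mod_cast Vale.Agent.Lib.P064.N_le_top H F
    · have h := Vale.Agent.Results.P064.A_forest.result H hH q h0 h1
        (fun F' hF' => by
          have := hstar F' hF'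
          rw [copies_eq_N]
          exact this) F hF
      rw [copies_eq_N, copies_eq_N] at h
      exact h
  · have hm : (min 1 (2000000 * q) : ℝ) = 1 := min_eq_left (by linarith)
    rw [hm, one_pow, mul_one]
    exact_mod_cast Vale.Agent.Lib.P064.N_le_top H F

/-- Let `H` be a graph on `Fin n`, `n ≥ 2`, and `q ≥ 0` with `N ⊤ F * q ^ e F ≥ 1/2` for every
subgraph `F` of `H`. Then for every subgraph `F` of `H`:
`N H F ≤ N ⊤ F * (min 1 (L * q)) ^ e F` with `L = 500 log n` in general, with `L = 2000000`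
when `H` is a forest and with `L = 1000 max(Δ, 1)` when `H` has maximum degree at most `Δ`; and
`N H F ≤ N ⊤ F * (200 (1 + log (e H / e F)) q) ^ e F` when `F` has an edge. -/
theorem result {n : ℕ} (hn : 2 ≤ n) (H : SimpleGraph (Fin n)) (q : ℝ) (hq : 0 ≤ q)
    (hstar : ∀ F ≤ H, (1 / 2 : ℝ) ≤ (N ⊤ F : ℝ) * q ^ e F) :
    ∀ F ≤ H,
      ((N H F : ℝ) ≤ (N ⊤ F : ℝ) * (min 1 (500 * Real.log n * q)) ^ e F) ∧
      (1 ≤ e F → (N H F : ℝ) ≤
        (N ⊤ F : ℝ) * (200 * (1 + Real.log ((e H : ℝ) / e F)) * q) ^ e F) ∧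
      (H.IsAcyclic → (N H F : ℝ) ≤ (N ⊤ F : ℝ) * (min 1 (2000000 * q)) ^ e F) ∧
      (∀ Δ : ℕ, (∀ x, (H.neighborSet x).ncard ≤ Δ) →
        (N H F : ℝ) ≤ (N ⊤ F : ℝ) * (min 1 (1000 * (max Δ 1 : ℕ) * q)) ^ e F) := by
  intro F hF
  have h := Vale.Agent.Results.P064.A_logn.result hn H q hq hstar F hF
  exact ⟨h.1, h.2, fun hH => forest_all H hH q hq hstar F hF,
    fun Δ hΔ => Vale.Agent.Results.P064.A_main.result H Δ hΔ q hq hstar F hF⟩

end Vale.Agent.Results.P064.AAA_union
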